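import Vale.Agent.Lib.P359.Spinor.Defs
import Vale.Agent.Lib.P359.Front

/-!
# P359: coordinates of spinor polynomials
-/

namespace Vale.Agent.P359.Spinor

open MvPolynomial Vale.Agent.P359

noncomputable section

variable {N : ℕ}

theorem coeff_Jp (i : Fin N) (f : Wave N) (d : Fin N × Fin 2 →₀ ℕ) :
    (Jp i f).coeff d = if d (i, 0) = 0 then 0 else
      f.coeff (d - Finsupp.single (i, 0) 1 + Finsupp.single (i, 1) 1) * ((d (i, 1) : ℂ) + 1) := by
  unfold Jp
  rw [coeff_X_mul', coeff_pderiv]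
  simp only [Finsupp.mem_support_iff, ne_eq, ite_not]
  split_ifs with h
  · rfl
  · rw [Finsupp.tsub_apply, Finsupp.single_eq_of_ne (by simp), Nat.sub_zero]

theorem coeff_Jm (i : Fin N) (f : Wave N) (d : Fin N × Fin 2 →₀ ℕ) :
    (Jm i f).coeff d = if d (i, 1) = 0 then 0 else
      f.coeff (d - Finsupp.single (i, 1) 1 + Finsupp.single (i, 0) 1) * ((d (i, 0) : ℂ) + 1) := by
  unfold Jm
  rw [coeff_X_mul', coeff_pderiv]
  simp only [Finsupp.mem_support_iff, ne_eq, ite_not]
  split_ifs with h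
  · rfl
  · rw [Finsupp.tsub_apply, Finsupp.single_eq_of_ne (by simp), Nat.sub_zero]

theorem coeff_num (p : Fin N × Fin 2) (f : Wave N) (d : Fin N × Fin 2 →₀ ℕ) :
    (X p * pderiv p f : Wave N).coeff d = f.coeff d * (d p : ℂ) := by
  rw [coeff_X_mul', coeff_pderiv]
  simp only [Finsupp.mem_support_iff, ne_eq, ite_not]
  split_ifs with h
  · rw [h, Nat.cast_zero, mul_zero]
  · have h1 : d - Finsupp.single p 1 + Finsupp.single p 1 = d := by
      refine tsub_add_cancel_of_le ?_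
      rw [Finsupp.single_le_iff]
      omega
    rw [h1, Finsupp.tsub_apply, Finsupp.single_eq_same]
    congr 1
    have : 1 ≤ d p := by omega
    rw [Nat.cast_sub this]
    simp

theorem coeff_Jz (i : Fin N) (f : Wave N) (d : Fin N × Fin 2 →₀ ℕ) :
    (Jz i f).coeff d = f.coeff d * (((d (i, 0) : ℂ) - (d (i, 1) : ℂ)) / 2) := by
  unfold Jz
  rw [coeff_C_mul, coeff_sub, coeff_num, coeff_num]
  ring

theorem Homog_Jp {Q : ℕ} {f : Wave N} (h : Homog Q f) (i : Fin N) : Homog Q (Jp i f) := by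
  intro d hd k
  rw [coeff_Jp] at hd
  split_ifs at hd with h0
  · exact absurd rfl hd
  · have h1 := h _ (left_ne_zero_of_mul hd) k
    by_cases hk : k = i
    · subst hk
      simp only [Finsupp.add_apply, Finsupp.tsub_apply, Finsupp.single_eq_same,
        Finsupp.single_eq_of_ne (show ((k, 0) : Fin N × Fin 2) ≠ (k, 1) by simp),
        Finsupp.single_eq_of_ne (show ((k, 1) : Fin N × Fin 2) ≠ (k, 0) by simp)] at h1
      omega
    · have hk' : ¬ i = k := fun h => hk h.symm
      simp only [Finsupp.add_apply, Finsupp.tsub_apply, Finsupp.single_apply, Prod.mk.injEq, hk',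
        false_and, if_false, Nat.sub_zero, Nat.add_zero] at h1
      exact h1

theorem Homog_Jm {Q : ℕ} {f : Wave N} (h : Homog Q f) (i : Fin N) : Homog Q (Jm i f) := by
  intro d hd k
  rw [coeff_Jm] at hd
  split_ifs at hd with h0
  · exact absurd rfl hd
  · have h1 := h _ (left_ne_zero_of_mul hd) k
    by_cases hk : k = i
    · subst hk
      simp only [Finsupp.add_apply, Finsupp.tsub_apply, Finsupp.single_eq_same,
        Finsupp.single_eq_of_ne (show ((k, 0) : Fin N × Fin 2) ≠ (k, 1) by simp),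
        Finsupp.single_eq_of_ne (show ((k, 1) : Fin N × Fin 2) ≠ (k, 0) by simp)] at h1
      omega
    · have hk' : ¬ i = k := fun h => hk h.symm
      simp only [Finsupp.add_apply, Finsupp.tsub_apply, Finsupp.single_apply, Prod.mk.injEq, hk',
        false_and, if_false, Nat.sub_zero, Nat.add_zero] at h1
      exact h1

theorem Homog_Jz {Q : ℕ} {f : Wave N} (h : Homog Q f) (i : Fin N) : Homog Q (Jz i f) := by
  intro d hd k
  rw [coeff_Jz] at hd
  exact h _ (left_ne_zero_of_mul hd) k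

theorem Homog_add {Q : ℕ} {f g : Wave N} (hf : Homog Q f) (hg : Homog Q g) :
    Homog Q (f + g) := by
  intro d hd k
  rw [coeff_add] at hd
  by_cases h : f.coeff d = 0
  · rw [h, zero_add] at hd
    exact hg d hd k
  · exact hf d h k

theorem Homog_C_mul {Q : ℕ} {f : Wave N} (hf : Homog Q f) (c : ℂ) : Homog Q (C c * f) := by
  intro d hd k
  rw [coeff_C_mul] at hd
  exact hf d (right_ne_zero_of_mul hd) k

theorem Homog_Jsq {Q : ℕ} {f : Wave N} (h : Homog Q f) (i j : Fin N) : Homog Q (Jsq i j f) := by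
  unfold Jsq
  have hp := Homog_add (Homog_Jp h i) (Homog_Jp h j)
  have hz := Homog_add (Homog_Jz h i) (Homog_Jz h j)
  exact Homog_add (Homog_add (Homog_add (Homog_Jm hp i) (Homog_Jm hp j))
    (Homog_add (Homog_Jz hz i) (Homog_Jz hz j))) hz

/-- norm of the one-particle monomial `u^{Q-k} v^k` -/
def sw (Q k : ℕ) : ℝ := √((((Q - k).factorial : ℕ) : ℝ) * ((k.factorial : ℕ) : ℝ))

theorem sw_pos (Q k : ℕ) : 0 < sw Q k := by
  unfold sw
  positivity

/-- norm of the monomial with exponent `expo x` -/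
def cc {Q : ℕ} (x : Fin N → Fin (Q + 1)) : ℝ := ∏ i, sw Q (x i)

theorem cc_pos {Q : ℕ} (x : Fin N → Fin (Q + 1)) : 0 < cc x :=
  Finset.prod_pos fun i _ => sw_pos Q (x i)

theorem sw_step (Q k : ℕ) (hk : k + 1 ≤ Q) :
    sw Q (k + 1) * √(((k : ℝ) + 1) * ((Q : ℝ) - k)) = ((k : ℝ) + 1) * sw Q k := by
  obtain ⟨r, rfl⟩ : ∃ r, Q = k + 1 + r := ⟨Q - (k + 1), by omega⟩
  unfold sw
  have h1 : k + 1 + r - (k + 1) = r := by omega
  have h2 : k + 1 + r - k = r + 1 := by omega
  rw [h1, h2, ← Real.sqrt_mul (by positivity)]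
  have h4 : ((k : ℝ) + 1) * √((((r + 1).factorial : ℕ) : ℝ) * ((k.factorial : ℕ) : ℝ)) =
      √(((k : ℝ) + 1) ^ 2 * ((((r + 1).factorial : ℕ) : ℝ) * ((k.factorial : ℕ) : ℝ))) := by
    rw [Real.sqrt_mul (by positivity : (0 : ℝ) ≤ ((k : ℝ) + 1) ^ 2),
      Real.sqrt_sq (by positivity : (0 : ℝ) ≤ (k : ℝ) + 1)]
  rw [h4, Nat.factorial_succ, Nat.factorial_succ]
  congr 1
  push_cast
  ring

theorem cc_update {Q : ℕ} (x : Fin N → Fin (Q + 1)) (i : Fin N) (y : Fin (Q + 1)) :
    cc (Function.update x i y) * sw Q (x i) = cc x * sw Q y := by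
  unfold cc
  have h1 : ∀ z : Fin N → Fin (Q + 1), ∏ k, sw Q (z k) =
      sw Q (z i) * ∏ k ∈ Finset.univ.erase i, sw Q (z k) := fun z =>
    (Finset.mul_prod_erase _ _ (Finset.mem_univ i)).symm
  rw [h1 (Function.update x i y), h1 x, Function.update_self]
  have h2 : ∏ k ∈ Finset.univ.erase i, sw Q (Function.update x i y k) =
      ∏ k ∈ Finset.univ.erase i, sw Q (x k) := by
    refine Finset.prod_congr rfl fun k hk => ?_
    rw [Function.update_of_ne (Finset.ne_of_mem_erase hk)]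
  rw [h2]
  ring

end

end Vale.Agent.P359.Spinor
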