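import Vale.Agent.Lib.P359.Spinor.Coeff

/-!
# P359: spinor polynomials and coordinate vectors
-/

namespace Vale.Agent.P359.Spinor

open MvPolynomial Vale.Agent.P359

noncomputable section

variable {N : ℕ}

/-- coordinates of a polynomial in the normalized monomials -/
def Psi (Q : ℕ) (f : Wave N) : (Fin N → Fin (Q + 1)) → ℂ :=
  fun x => f.coeff (Sphere.expo x) * ((cc x : ℝ) : ℂ)

/-- the polynomial with given coordinates -/
def Phi {Q : ℕ} (ψ : (Fin N → Fin (Q + 1)) → ℂ) : Wave N :=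
  ∑ x, monomial (Sphere.expo x) (ψ x / ((cc x : ℝ) : ℂ))

theorem cc_ne {Q : ℕ} (x : Fin N → Fin (Q + 1)) : ((cc x : ℝ) : ℂ) ≠ 0 :=
  Complex.ofReal_ne_zero.2 (cc_pos x).ne'

theorem expo_zero {Q : ℕ} (x : Fin N → Fin (Q + 1)) (i : Fin N) :
    Sphere.expo x (i, 0) = Q - (x i : ℕ) := rfl

theorem expo_one {Q : ℕ} (x : Fin N → Fin (Q + 1)) (i : Fin N) :
    Sphere.expo x (i, 1) = (x i : ℕ) := rfl

theorem expo_inj {Q : ℕ} {x y : Fin N → Fin (Q + 1)} (h : Sphere.expo x = Sphere.expo y) :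
    x = y := by
  funext i
  apply Fin.ext
  have := DFunLike.congr_fun h (i, 1)
  rw [expo_one, expo_one] at this
  exact this

theorem exists_expo {Q : ℕ} {d : Fin N × Fin 2 →₀ ℕ} (h : ∀ i, d (i, 0) + d (i, 1) = Q) :
    ∃ x : Fin N → Fin (Q + 1), Sphere.expo x = d := by
  refine ⟨fun i => ⟨d (i, 1), by have := h i; omega⟩, ?_⟩
  ext ⟨i, k⟩
  fin_cases k
  · change Sphere.expo _ (i, 0) = d (i, 0)
    rw [expo_zero]
    have := h i
    simp only
    omega
  · change Sphere.expo _ (i, 1) = d (i, 1)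
    rw [expo_one]

theorem coeff_Phi {Q : ℕ} (ψ : (Fin N → Fin (Q + 1)) → ℂ) (x : Fin N → Fin (Q + 1)) :
    (Phi ψ).coeff (Sphere.expo x) = ψ x / ((cc x : ℝ) : ℂ) := by
  classical
  unfold Phi
  rw [coeff_sum, Finset.sum_eq_single x]
  · rw [coeff_monomial, if_pos rfl]
  · intro y _ hy
    rw [coeff_monomial, if_neg (fun h => hy (expo_inj h))]
  · intro h
    exact absurd (Finset.mem_univ x) h

theorem Homog_Phi {Q : ℕ} (ψ : (Fin N → Fin (Q + 1)) → ℂ) : Homog Q (Phi ψ) := by
  classical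
  intro d hd i
  unfold Phi at hd
  rw [coeff_sum] at hd
  obtain ⟨x, _, hx⟩ := Finset.exists_ne_zero_of_sum_ne_zero hd
  rw [coeff_monomial] at hx
  have hxd : Sphere.expo x = d := by
    by_contra hne
    rw [if_neg hne] at hx
    exact hx rfl
  rw [← hxd, expo_zero, expo_one]
  have := (x i).isLt
  omega

theorem Psi_Phi {Q : ℕ} (ψ : (Fin N → Fin (Q + 1)) → ℂ) : Psi Q (Phi ψ) = ψ := by
  funext x
  unfold Psi
  rw [coeff_Phi, div_mul_cancel₀ _ (cc_ne x)]

theorem Psi_inj {Q : ℕ} {f g : Wave N} (hf : Homog Q f) (hg : Homog Q g)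
    (h : Psi Q f = Psi Q g) : f = g := by
  refine MvPolynomial.ext _ _ fun d => ?_
  by_cases hd : ∀ i, d (i, 0) + d (i, 1) = Q
  · obtain ⟨x, rfl⟩ := exists_expo hd
    have := congrFun h x
    unfold Psi at this
    exact mul_right_cancel₀ (cc_ne x) this
  · have h1 : f.coeff d = 0 := by
      by_contra hne
      exact hd (hf d hne)
    have h2 : g.coeff d = 0 := by
      by_contra hne
      exact hd (hg d hne)
    rw [h1, h2]

theorem Psi_add {Q : ℕ} (f g : Wave N) : Psi Q (f + g) = Psi Q f + Psi Q g := by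
  funext x
  simp only [Psi, coeff_add, Pi.add_apply, add_mul]

theorem Psi_sub {Q : ℕ} (f g : Wave N) : Psi Q (f - g) = Psi Q f - Psi Q g := by
  funext x
  simp only [Psi, coeff_sub, Pi.sub_apply, sub_mul]

theorem Psi_C_mul {Q : ℕ} (c : ℂ) (f : Wave N) : Psi Q (C c * f) = c • Psi Q f := by
  funext x
  simp only [Psi, coeff_C_mul, Pi.smul_apply, smul_eq_mul, mul_assoc]

theorem fact_prod {Q : ℕ} (x : Fin N → Fin (Q + 1)) :
    (∏ p, ((Sphere.expo x p).factorial : ℂ)) = ((cc x : ℝ) : ℂ) * ((cc x : ℝ) : ℂ) := by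
  rw [Fintype.prod_prod_type]
  unfold cc
  rw [Complex.ofReal_prod, ← Finset.prod_mul_distrib]
  refine Finset.prod_congr rfl fun i _ => ?_
  rw [Fin.prod_univ_two, expo_zero, expo_one]
  unfold sw
  rw [← Complex.ofReal_mul, Real.mul_self_sqrt (by positivity)]
  push_cast
  rfl

theorem ip_eq {Q : ℕ} {f : Wave N} (hf : Homog Q f) (g : Wave N) :
    ip f g = ∑ x, star (Psi Q f x) * Psi Q g x := by
  classical
  have h1 : ip f g = ∑ d ∈ Finset.univ.image (fun x : Fin N → Fin (Q + 1) => Sphere.expo x),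
      star (f.coeff d) * g.coeff d * ∏ p, ((d p).factorial : ℂ) := by
    unfold ip
    refine Finset.sum_subset ?_ ?_
    · intro d hd
      obtain ⟨x, hx⟩ := exists_expo (hf d (mem_support_iff.1 hd))
      exact Finset.mem_image.2 ⟨x, Finset.mem_univ x, hx⟩
    · intro d _ hd
      rw [notMem_support_iff.1 hd, star_zero, zero_mul, zero_mul]
  rw [h1, Finset.sum_image (fun x _ y _ h => expo_inj h)]
  refine Finset.sum_congr rfl fun x _ => ?_
  rw [fact_prod]
  unfold Psi
  rw [star_mul', Complex.star_def, Complex.conj_ofReal]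
  ring

/-- one-body operator on coordinate vectors -/
def ob {Q : ℕ} (A : Matrix (Fin (Q + 1)) (Fin (Q + 1)) ℂ) (i : Fin N)
    (ψ : (Fin N → Fin (Q + 1)) → ℂ) : (Fin N → Fin (Q + 1)) → ℂ :=
  fun x => ∑ y, A (x i) y * ψ (Function.update x i y)

theorem expo_up {Q : ℕ} (x : Fin N → Fin (Q + 1)) (i : Fin N) (y : Fin (Q + 1))
    (hy : (y : ℕ) = (x i : ℕ) + 1) :
    Sphere.expo x - Finsupp.single (i, 0) 1 + Finsupp.single (i, 1) 1 =
      Sphere.expo (Function.update x i y) := by
  ext ⟨k, b⟩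
  have hyQ := y.isLt
  by_cases hk : k = i
  · subst hk
    fin_cases b
    · change (Sphere.expo x - Finsupp.single (k, 0) 1 + Finsupp.single (k, 1) 1 :
        Fin N × Fin 2 →₀ ℕ) (k, 0) = Sphere.expo (Function.update x k y) (k, 0)
      rw [Finsupp.add_apply, Finsupp.tsub_apply, Finsupp.single_eq_same,
        Finsupp.single_eq_of_ne (by simp), expo_zero, expo_zero, Function.update_self]
      omega
    · change (Sphere.expo x - Finsupp.single (k, 0) 1 + Finsupp.single (k, 1) 1 :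
        Fin N × Fin 2 →₀ ℕ) (k, 1) = Sphere.expo (Function.update x k y) (k, 1)
      rw [Finsupp.add_apply, Finsupp.tsub_apply, Finsupp.single_eq_same,
        Finsupp.single_eq_of_ne (by simp), expo_one, expo_one, Function.update_self]
      omega
  · have hk' : ¬ i = k := fun h => hk h.symm
    simp only [Finsupp.add_apply, Finsupp.tsub_apply, Finsupp.single_apply, Prod.mk.injEq, hk',
      false_and, if_false, Nat.sub_zero, Nat.add_zero]
    unfold Sphere.expo
    simp only [Finsupp.equivFunOnFinite_symm_apply_apply, Function.update_of_ne hk]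

theorem expo_down {Q : ℕ} (x : Fin N → Fin (Q + 1)) (i : Fin N) (y : Fin (Q + 1))
    (hy : (y : ℕ) + 1 = (x i : ℕ)) :
    Sphere.expo x - Finsupp.single (i, 1) 1 + Finsupp.single (i, 0) 1 =
      Sphere.expo (Function.update x i y) := by
  ext ⟨k, b⟩
  have hxQ := (x i).isLt
  by_cases hk : k = i
  · subst hk
    fin_cases b
    · change (Sphere.expo x - Finsupp.single (k, 1) 1 + Finsupp.single (k, 0) 1 :
        Fin N × Fin 2 →₀ ℕ) (k, 0) = Sphere.expo (Function.update x k y) (k, 0)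
      rw [Finsupp.add_apply, Finsupp.tsub_apply, Finsupp.single_eq_same,
        Finsupp.single_eq_of_ne (by simp), expo_zero, expo_zero, Function.update_self]
      omega
    · change (Sphere.expo x - Finsupp.single (k, 1) 1 + Finsupp.single (k, 0) 1 :
        Fin N × Fin 2 →₀ ℕ) (k, 1) = Sphere.expo (Function.update x k y) (k, 1)
      rw [Finsupp.add_apply, Finsupp.tsub_apply, Finsupp.single_eq_same,
        Finsupp.single_eq_of_ne (by simp), expo_one, expo_one, Function.update_self]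
      omega
  · have hk' : ¬ i = k := fun h => hk h.symm
    simp only [Finsupp.add_apply, Finsupp.tsub_apply, Finsupp.single_apply, Prod.mk.injEq, hk',
      false_and, if_false, Nat.sub_zero, Nat.add_zero]
    unfold Sphere.expo
    simp only [Finsupp.equivFunOnFinite_symm_apply_apply, Function.update_of_ne hk]

theorem Psi_Jp {Q : ℕ} (i : Fin N) (f : Wave N) :
    Psi Q (Jp i f) = ob (Sphere.spinPlus Q) i (Psi Q f) := by
  funext x
  unfold ob
  have hx := (x i).isLt
  by_cases h0 : Q - (x i : ℕ) = 0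
  · have hL : Psi Q (Jp i f) x = 0 := by
      unfold Psi
      rw [coeff_Jp, expo_zero, if_pos h0, zero_mul]
    rw [hL]
    refine (Finset.sum_eq_zero fun y _ => ?_).symm
    have hy := y.isLt
    unfold Sphere.spinPlus
    rw [if_neg (by omega), zero_mul]
  · obtain ⟨y0, hy0⟩ : ∃ y0 : Fin (Q + 1), (y0 : ℕ) = (x i : ℕ) + 1 := ⟨⟨(x i : ℕ) + 1, by omega⟩, rfl⟩
    rw [Finset.sum_eq_single y0]
    · have hL : Psi Q (Jp i f) x = f.coeff (Sphere.expo (Function.update x i y0)) *
          (((x i : ℕ) : ℂ) + 1) * ((cc x : ℝ) : ℂ) := by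
        unfold Psi
        rw [coeff_Jp, expo_zero, expo_one, if_neg h0, expo_up x i y0 hy0]
      rw [hL]
      unfold Sphere.spinPlus Psi
      rw [if_pos hy0.symm, hy0]
      have h1 := cc_update x i y0
      rw [hy0] at h1
      have h2 := sw_step Q (x i) (by omega)
      have h3 := sw_pos Q (x i)
      obtain ⟨t, ht⟩ : ∃ t : ℝ, t = √(((x i : ℕ) + 1 : ℝ) * ((Q : ℝ) - (x i : ℕ))) := ⟨_, rfl⟩
      have ht' : √((((x i : ℕ) + 1 : ℕ) : ℝ) * ((Q : ℝ) + 1 - (((x i : ℕ) + 1 : ℕ) : ℝ))) = t := by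
        rw [ht]; congr 1; push_cast; ring
      rw [← ht] at h2
      rw [ht']
      have h4 : t * cc (Function.update x i y0) = (((x i : ℕ) : ℝ) + 1) * cc x := by
        have h5 : (t * cc (Function.update x i y0)) * sw Q (x i) =
            ((((x i : ℕ) : ℝ) + 1) * cc x) * sw Q (x i) := by
          linear_combination t * h1 + cc x * h2
        exact mul_right_cancel₀ h3.ne' h5
      have h6 : (t : ℂ) * ((cc (Function.update x i y0) : ℝ) : ℂ) =
          ((((x i : ℕ) : ℂ) + 1) * ((cc x : ℝ) : ℂ)) := by exact_mod_cast h4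
      linear_combination (-(coeff (Sphere.expo (Function.update x i y0)) f)) * h6
    · intro y _ hy
      unfold Sphere.spinPlus
      rw [if_neg (fun h => hy (Fin.ext (by omega))), zero_mul]
    · intro h
      exact absurd (Finset.mem_univ _) h

theorem Psi_Jm {Q : ℕ} (i : Fin N) (f : Wave N) :
    Psi Q (Jm i f) = ob (Sphere.spinPlus Q).conjTranspose i (Psi Q f) := by
  funext x
  unfold ob
  have hx := (x i).isLt
  by_cases h0 : (x i : ℕ) = 0
  · have hL : Psi Q (Jm i f) x = 0 := by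
      unfold Psi
      rw [coeff_Jm, expo_one, if_pos h0, zero_mul]
    rw [hL]
    refine (Finset.sum_eq_zero fun y _ => ?_).symm
    rw [Matrix.conjTranspose_apply]
    unfold Sphere.spinPlus
    rw [if_neg (by omega), star_zero, zero_mul]
  · obtain ⟨y0, hy0⟩ : ∃ y0 : Fin (Q + 1), (y0 : ℕ) + 1 = (x i : ℕ) :=
      ⟨⟨(x i : ℕ) - 1, by omega⟩, by simp only; omega⟩
    rw [Finset.sum_eq_single y0]
    · have hL : Psi Q (Jm i f) x = f.coeff (Sphere.expo (Function.update x i y0)) *
          ((Q : ℂ) - ((y0 : ℕ) : ℂ)) * ((cc x : ℝ) : ℂ) := by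
        unfold Psi
        rw [coeff_Jm, expo_one, expo_zero, if_neg h0, expo_down x i y0 hy0,
          Nat.cast_sub (by omega), ← hy0]
        push_cast
        ring
      rw [hL, Matrix.conjTranspose_apply]
      unfold Sphere.spinPlus Psi
      rw [if_pos hy0, ← hy0]
      have h1 := cc_update x i y0
      rw [← hy0] at h1
      have h2 := sw_step Q y0 (by omega)
      have h3 := sw_pos Q y0
      obtain ⟨t, ht⟩ : ∃ t : ℝ, t = √(((y0 : ℕ) + 1 : ℝ) * ((Q : ℝ) - (y0 : ℕ))) := ⟨_, rfl⟩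
      have hkQ : (0 : ℝ) ≤ (Q : ℝ) - (y0 : ℕ) := by
        have : ((y0 : ℕ) : ℝ) ≤ Q := by exact_mod_cast (by omega : (y0 : ℕ) ≤ Q)
        linarith
      have htt : t * t = ((y0 : ℕ) + 1 : ℝ) * ((Q : ℝ) - (y0 : ℕ)) := by
        rw [ht, Real.mul_self_sqrt (by positivity)]
      have ht' : √((((y0 : ℕ) + 1 : ℕ) : ℝ) * ((Q : ℝ) + 1 - (((y0 : ℕ) + 1 : ℕ) : ℝ))) = t := by
        rw [ht]; congr 1; push_cast; ring
      rw [← ht] at h2
      rw [ht', Complex.star_def, Complex.conj_ofReal]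
      obtain ⟨u, hu⟩ : ∃ u : ℝ, u = cc (Function.update x i y0) := ⟨_, rfl⟩
      rw [← hu] at h1
      rw [← hu]
      have h4 : u * (((y0 : ℕ) : ℝ) + 1) = cc x * t := by
        have h5 : (u * (((y0 : ℕ) : ℝ) + 1)) * sw Q y0 = (cc x * t) * sw Q y0 := by
          linear_combination (-u) * h2 + t * h1
        exact mul_right_cancel₀ h3.ne' h5
      have h6 : t * u = cc x * ((Q : ℝ) - (y0 : ℕ)) := by
        have hk0 : (((y0 : ℕ) : ℝ) + 1) ≠ 0 := by positivity
        have h7 : (t * u) * (((y0 : ℕ) : ℝ) + 1) =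
            (cc x * ((Q : ℝ) - (y0 : ℕ))) * (((y0 : ℕ) : ℝ) + 1) := by
          linear_combination t * h4 + cc x * htt
        exact mul_right_cancel₀ hk0 h7
      have h8 : (t : ℂ) * (u : ℂ) = ((cc x : ℝ) : ℂ) * ((Q : ℂ) - ((y0 : ℕ) : ℂ)) := by
        exact_mod_cast h6
      linear_combination (-(coeff (Sphere.expo (Function.update x i y0)) f)) * h8
    · intro y _ hy
      rw [Matrix.conjTranspose_apply]
      unfold Sphere.spinPlus
      rw [if_neg (fun h => hy (Fin.ext (by omega))), star_zero, zero_mul]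
    · intro h
      exact absurd (Finset.mem_univ _) h

theorem Psi_Jz {Q : ℕ} (i : Fin N) (f : Wave N) :
    Psi Q (Jz i f) = ob (Sphere.spinZ Q) i (Psi Q f) := by
  funext x
  unfold Psi ob
  rw [coeff_Jz, expo_zero, expo_one, Finset.sum_eq_single (x i)]
  · rw [Function.update_eq_self]
    unfold Sphere.spinZ
    rw [Matrix.diagonal_apply_eq, Nat.cast_sub (by have := (x i).isLt; omega)]
    ring
  · intro y _ hy
    unfold Sphere.spinZ
    rw [Matrix.diagonal_apply_ne' _ hy, zero_mul]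
  · intro h
    exact absurd (Finset.mem_univ _) h

end

end Vale.Agent.P359.Spinor
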