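import Mathlib

/-!
# P359: the fermionic Laughlin Hamiltonian on polynomials in spinor variables

Wave functions of `N` particles are polynomials in `u_i = X (i, 0)`, `v_i = X (i, 1)`; no
coordinates, matrices or bases are used.
-/

namespace Vale.Agent.P359.Spinor

open MvPolynomial

noncomputable section

variable {N : ℕ}

/-- polynomials in the spinor variables `u_i = X (i, 0)`, `v_i = X (i, 1)` of `N` particles -/
abbrev Wave (N : ℕ) : Type := MvPolynomial (Fin N × Fin 2) ℂ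

/-- `f ∈ U_Q^{⊗N}`: for each particle `i`, `f` is homogeneous of degree `Q` in `(u_i, v_i)` -/
def Homog (Q : ℕ) (f : Wave N) : Prop := ∀ d, f.coeff d ≠ 0 → ∀ i, d (i, 0) + d (i, 1) = Q

/-- `f` is antisymmetric under permutations of the particles -/
def Anti (f : Wave N) : Prop :=
  ∀ σ : Equiv.Perm (Fin N), rename (fun p => (σ p.1, p.2)) f = C ((Equiv.Perm.sign σ : ℤ) : ℂ) * f

/-- the invariant inner product of `U_Q^{⊗N}` (times `(Q!)^N`): the monomials `∏ u_i^{a_i} v_i^{b_i}` are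
orthogonal, of squared norm `∏ a_i! b_i!` -/
def ip (f g : Wave N) : ℂ :=
  ∑ d ∈ f.support, star (f.coeff d) * g.coeff d * ∏ p, ((d p).factorial : ℂ)

/-- `J_+ = u ∂/∂v` for particle `i` -/
def Jp (i : Fin N) (f : Wave N) : Wave N := X (i, 0) * pderiv (i, 1) f

/-- `J_- = v ∂/∂u` for particle `i` -/
def Jm (i : Fin N) (f : Wave N) : Wave N := X (i, 1) * pderiv (i, 0) f

/-- `J_z = (u ∂/∂u - v ∂/∂v) / 2` for particle `i` -/
def Jz (i : Fin N) (f : Wave N) : Wave N :=
  C (1 / 2) * (X (i, 0) * pderiv (i, 0) f - X (i, 1) * pderiv (i, 1) f)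

/-- the total spin operator `J² = J_- J_+ + J_z² + J_z` of the particles `i` and `j` -/
def Jsq (i j : Fin N) (f : Wave N) : Wave N :=
  (Jm i (Jp i f + Jp j f) + Jm j (Jp i f + Jp j f)) +
    (Jz i (Jz i f + Jz j f) + Jz j (Jz i f + Jz j f)) + (Jz i f + Jz j f)

/-- `f ∈ U_Q^{⊗N}` and the particles `i`, `j` have total spin `Q - 1`: `J² f = (Q - 1) Q f` -/
def PairSpin (Q : ℕ) (i j : Fin N) (f : Wave N) : Prop :=
  Homog Q f ∧ Jsq i j f = C (((Q : ℂ) - 1) * Q) * f

/-- `g = P^{(1)}_{ij} f`, the orthogonal projection of `f` to the vectors with total spin `Q - 1`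
of the particles `i`, `j` -/
def IsP1 (Q : ℕ) (i j : Fin N) (f g : Wave N) : Prop :=
  PairSpin Q i j g ∧ ∀ h, PairSpin Q i j h → ip h (f - g) = 0

/-- `h = H_{N,Q} f`, `H_{N,Q} = ∑_{i<j} P^{(1)}_{ij}` -/
def IsHam (Q : ℕ) (f h : Wave N) : Prop :=
  ∃ g : Fin N → Fin N → Wave N, (∀ i j, i < j → IsP1 Q i j f (g i j)) ∧
    h = ∑ i, ∑ j, if i < j then g i j else 0

/-- the Laughlin wave function `∏_{i<j} (u_i v_j - u_j v_i)^3` -/
def laughlin (N : ℕ) : Wave N :=
  ∏ i : Fin N, ∏ j : Fin N,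
    if i < j then (X (i, 0) * X (j, 1) - X (j, 0) * X (i, 1)) ^ 3 else 1

end

end Vale.Agent.P359.Spinor
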