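import Vale.Agent.Lib.P359.Spinor.Pair
import Vale.Agent.Lib.P359.LPAnti
import Vale.Agent.Lib.P359.LPHom
import Vale.Agent.Lib.P359.Core
import Vale.Agent.Lib.P359.Final

/-!
# P359: the gap on spinor polynomials
-/

namespace Vale.Agent.P359.Spinor

open MvPolynomial Vale.Agent.P359 Matrix

noncomputable section

variable {N Q : ℕ}

theorem laughlin_eq' (N : ℕ) : laughlin N = Stmt.laughlinPoly N := by
  rw [← Bridge.laughlinPoly_eq]
  rfl

theorem Homog_laughlin (N : ℕ) : Homog (3 * (N - 1)) (laughlin N) := by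
  intro d hd i
  rw [laughlin_eq'] at hd
  exact lp_hom N d hd i

theorem isWedge_Psi {f : Wave N} (hf : Anti f) :
    Sphere.IsWedge (Psi (3 * (N - 1)) f) := by
  intro σ x
  have h1 : (f.coeff (Sphere.expo (x ∘ σ)) : ℂ) =
      (((Equiv.Perm.sign σ : ℤˣ) : ℤ) : ℂ) * f.coeff (Sphere.expo x) := by
    have h2 := congrArg (coeff (Stmt.expo x)) (hf σ)
    rw [coeff_C_mul] at h2
    have h3 : coeff (Stmt.expo x) (rename (LPAnti.ren σ) f) = coeff (Stmt.expo (x ∘ σ)) f := by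
      rw [← LPAnti.expo_ren, coeff_rename_mapDomain _ (LPAnti.ren_inj σ)]
    exact h3.symm.trans h2
  have h4 : cc (x ∘ σ) = cc x := by
    unfold cc
    exact Equiv.prod_comp σ (fun i => sw (3 * (N - 1)) (x i))
  unfold Psi
  rw [h1, h4, mul_assoc]

theorem Psi_laughlin (N : ℕ) : ∃ κ : ℝ, 0 < κ ∧
    Psi (3 * (N - 1)) (laughlin N) = fun x => (κ : ℂ) * Sphere.laughlin N x := by
  refine ⟨√((((3 * (N - 1)).factorial : ℕ) : ℝ)) ^ N, by positivity, ?_⟩
  funext x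
  unfold Psi Sphere.laughlin
  have h1 : ((cc x : ℝ)) * ∏ i, √(((3 * (N - 1)).choose (x i) : ℕ) : ℝ) =
      √((((3 * (N - 1)).factorial : ℕ) : ℝ)) ^ N := by
    unfold cc
    rw [← Finset.prod_mul_distrib]
    have h2 : ∀ i ∈ (Finset.univ : Finset (Fin N)), sw (3 * (N - 1)) (x i) *
        √(((3 * (N - 1)).choose (x i) : ℕ) : ℝ) = √((((3 * (N - 1)).factorial : ℕ) : ℝ)) := by
      intro i _
      unfold sw
      rw [← Real.sqrt_mul (by positivity)]
      congr 1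
      have h3 := Nat.choose_mul_factorial_mul_factorial
        (show ((x i : ℕ)) ≤ 3 * (N - 1) by have := (x i).isLt; omega)
      have h4 : ((((3 * (N - 1)).choose (x i) : ℕ) : ℝ) * (((x i : ℕ).factorial : ℕ) : ℝ)) *
          (((3 * (N - 1) - (x i : ℕ)).factorial : ℕ) : ℝ) =
          (((3 * (N - 1)).factorial : ℕ) : ℝ) := by exact_mod_cast h3
      linear_combination h4
    rw [Finset.prod_congr rfl h2, Finset.prod_const, Finset.card_univ, Fintype.card_fin]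
  have h5 : (∏ i, √(((3 * (N - 1)).choose (x i) : ℕ) : ℝ)) ≠ 0 := by
    refine (Finset.prod_pos fun i _ => ?_).ne'
    have : 0 < (3 * (N - 1)).choose (x i) :=
      Nat.choose_pos (by have := (x i).isLt; omega)
    positivity
  have h6 : ((∏ i, √(((3 * (N - 1)).choose (x i) : ℕ) : ℝ) : ℝ) : ℂ) ≠ 0 :=
    Complex.ofReal_ne_zero.2 h5
  rw [← h1]
  have h7 : laughlin N = Sphere.laughlinPoly N := rfl
  rw [h7, mul_div_assoc', eq_div_iff h6]
  push_cast
  ring

theorem ip_psi {f : Wave N} (hf : Homog Q f) (g : Wave N) :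
    ip f g = Sphere.ip (Psi Q f) (Psi Q g) := by
  rw [ip_eq hf]
  rfl

theorem normSq_re {ι : Type} [Fintype ι] (ψ : ι → ℂ) : (Sphere.ip ψ ψ).re = Sphere.normSq ψ := by
  unfold Sphere.ip Sphere.normSq
  rw [Complex.re_sum]
  refine Finset.sum_congr rfl fun x _ => ?_
  rw [Complex.conj_mul', ← Complex.ofReal_pow, Complex.ofReal_re]

/-- `‖P_L ψ‖² = |⟨L, ψ⟩|² / ⟨L, L⟩` -/
theorem PL_norm (ψ : (Fin N → Fin (3 * (N - 1) + 1)) → ℂ) :
    Sphere.normSq (Sphere.PL N ψ) =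
      ‖Sphere.ip (Sphere.laughlin N) ψ‖ ^ 2 / Sphere.normSq (Sphere.laughlin N) := by
  rw [Bridge.normSq_eq, Bridge.normSq_eq, Bridge.PL_eq, Bridge.ip_eq, Bridge.laughlin_eq]
  unfold Stmt.PL
  rw [Submodule.starProjection_singleton, norm_smul, norm_div, mul_pow, div_pow]
  have h1 := RCLike.norm_ofReal (K := ℂ) (‖Stmt.laughlin N‖ ^ 2)
  rw [abs_of_nonneg (sq_nonneg _)] at h1
  have h2 : ‖Stmt.laughlin N‖ ≠ 0 := by
    rw [norm_ne_zero_iff]
    exact laughlin_ne N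
  rw [h1]
  field_simp

/-- the operator `H_{N,Q}` is well defined -/
theorem exists_ham (Q : ℕ) (f : Wave N) : ∃! h, IsHam Q f h := by
  refine ⟨∑ i, ∑ j, if i < j then Phi (Sphere.Ppair i j (Psi Q f)) else 0,
    ⟨fun i j => Phi (Sphere.Ppair i j (Psi Q f)), fun i j hij => isP1_Phi hij.ne f, rfl⟩, ?_⟩
  rintro h ⟨g, hg, rfl⟩
  refine Finset.sum_congr rfl fun i _ => Finset.sum_congr rfl fun j _ => ?_
  split_ifs with hij
  · refine Psi_inj (hg i j hij).1.1 (Homog_Phi _) ?_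
    rw [Psi_of_isP1 hij.ne (hg i j hij), Psi_Phi]
  · rfl

theorem Psi_sum {ι : Type} (s : Finset ι) (F : ι → Wave N) :
    Psi Q (∑ k ∈ s, F k) = ∑ k ∈ s, Psi Q (F k) := by
  funext x
  unfold Psi
  rw [coeff_sum, Finset.sum_mul, Finset.sum_apply]

theorem Psi_zero : Psi Q (0 : Wave N) = 0 := by
  funext x
  unfold Psi
  rw [coeff_zero, zero_mul]
  rfl

theorem Psi_ham {f h : Wave N} (hh : IsHam Q f h) :
    Psi Q h = Sphere.Ham (Psi Q f) := by
  obtain ⟨g, hg, rfl⟩ := hh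
  rw [Psi_sum]
  funext x
  unfold Sphere.Ham
  rw [Finset.sum_apply]
  refine Finset.sum_congr rfl fun i _ => ?_
  rw [Psi_sum, Finset.sum_apply]
  refine Finset.sum_congr rfl fun j _ => ?_
  split_ifs with hij
  · rw [Psi_of_isP1 hij.ne (hg i j hij)]
  · rw [Psi_zero]
    rfl

theorem main : ∃ N₀ : ℕ, ∀ N ≥ N₀, ∀ f h : Wave N,
    Homog (3 * (N - 1)) f → Anti f → IsHam (3 * (N - 1)) f h →
    (1 / 25 : ℝ) * ((ip f f).re - ‖ip (laughlin N) f‖ ^ 2 / (ip (laughlin N) (laughlin N)).re) ≤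
      (ip f h).re := by
  obtain ⟨Q0, hQ0⟩ := core_gap
  refine ⟨Q0 + 2, fun N hN f h hf ha hh => ?_⟩
  have hmain := final N (by omega) (hQ0 (3 * (N - 1)) (by omega))
    (WithLp.toLp 2 (Psi (3 * (N - 1)) f)) ((Bridge.wedge_iff _).1 (isWedge_Psi ha))
  rw [← Bridge.normSq_eq, ← Bridge.Ham_eq, ← Bridge.ip_eq, ← Bridge.PL_eq,
    ← Bridge.normSq_eq, PL_norm] at hmain
  rw [ip_psi hf, ip_psi hf, normSq_re, ip_psi (Homog_laughlin N), ip_psi (Homog_laughlin N),
    normSq_re, Psi_ham hh]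
  obtain ⟨κ, hκ, hL⟩ := Psi_laughlin N
  have h1 : Sphere.ip (Psi (3 * (N - 1)) (laughlin N)) (Psi (3 * (N - 1)) f) =
      (κ : ℂ) * Sphere.ip (Sphere.laughlin N) (Psi (3 * (N - 1)) f) := by
    rw [hL]
    unfold Sphere.ip
    rw [Finset.mul_sum]
    refine Finset.sum_congr rfl fun x _ => ?_
    rw [map_mul, Complex.conj_ofReal]
    ring
  have h2 : Sphere.normSq (Psi (3 * (N - 1)) (laughlin N)) =
      κ ^ 2 * Sphere.normSq (Sphere.laughlin N) := by
    rw [hL]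
    unfold Sphere.normSq
    rw [Finset.mul_sum]
    refine Finset.sum_congr rfl fun x _ => ?_
    rw [norm_mul, mul_pow, Complex.norm_real, Real.norm_of_nonneg hκ.le]
  rw [h1, h2, norm_mul, mul_pow, Complex.norm_real, Real.norm_of_nonneg hκ.le,
    mul_div_mul_left _ _ (by positivity)]
  exact hmain

end

end Vale.Agent.P359.Spinor
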