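import Vale.Agent.Lib.P359.Spinor.Coord
import Vale.Agent.Lib.P359.FrontBridge

/-!
# P359: the pair projection on spinor polynomials
-/

namespace Vale.Agent.P359.Spinor

open MvPolynomial Vale.Agent.P359 Matrix

noncomputable section

variable {N Q : ℕ}

/-- replace the coordinates `i`, `j` -/
def up2 (i j : Fin N) (x : Fin N → Fin (Q + 1)) (ab : Fin (Q + 1) × Fin (Q + 1)) :
    Fin N → Fin (Q + 1) := Function.update (Function.update x i ab.1) j ab.2

/-- slice of a coordinate vector -/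
def sl (i j : Fin N) (ψ : (Fin N → Fin (Q + 1)) → ℂ) (x : Fin N → Fin (Q + 1)) :
    Fin (Q + 1) × Fin (Q + 1) → ℂ := fun ab => ψ (up2 i j x ab)

/-- two-body operator -/
def pb (M : Matrix (Fin (Q + 1) × Fin (Q + 1)) (Fin (Q + 1) × Fin (Q + 1)) ℂ) (i j : Fin N)
    (ψ : (Fin N → Fin (Q + 1)) → ℂ) : (Fin N → Fin (Q + 1)) → ℂ :=
  fun x => (M *ᵥ sl i j ψ x) (x i, x j)

theorem up2_i {i j : Fin N} (hij : i ≠ j) (x : Fin N → Fin (Q + 1))
    (ab : Fin (Q + 1) × Fin (Q + 1)) : up2 i j x ab i = ab.1 := by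
  unfold up2
  rw [Function.update_of_ne hij, Function.update_self]

theorem up2_j (i j : Fin N) (x : Fin N → Fin (Q + 1))
    (ab : Fin (Q + 1) × Fin (Q + 1)) : up2 i j x ab j = ab.2 := by
  unfold up2
  rw [Function.update_self]

theorem up2_up2 (i j : Fin N) (x : Fin N → Fin (Q + 1))
    (ab cd : Fin (Q + 1) × Fin (Q + 1)) : up2 i j (up2 i j x ab) cd = up2 i j x cd := by
  funext k
  unfold up2
  by_cases hj : k = j
  · subst hj
    rw [Function.update_self, Function.update_self]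
  · rw [Function.update_of_ne hj, Function.update_of_ne hj]
    by_cases hi : k = i
    · subst hi
      rw [Function.update_self, Function.update_self]
    · rw [Function.update_of_ne hi, Function.update_of_ne hi, Function.update_of_ne hj,
        Function.update_of_ne hi]

theorem up2_self (i j : Fin N) (x : Fin N → Fin (Q + 1)) : up2 i j x (x i, x j) = x := by
  unfold up2
  simp only [Function.update_eq_self]

theorem sl_self (i j : Fin N) (ψ : (Fin N → Fin (Q + 1)) → ℂ) (x : Fin N → Fin (Q + 1)) :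
    sl i j ψ x (x i, x j) = ψ x := by
  unfold sl
  rw [up2_self]

theorem sl_up2 (i j : Fin N) (ψ : (Fin N → Fin (Q + 1)) → ℂ) (x : Fin N → Fin (Q + 1))
    (ab : Fin (Q + 1) × Fin (Q + 1)) : sl i j ψ (up2 i j x ab) = sl i j ψ x := by
  funext cd
  unfold sl
  rw [up2_up2]

theorem sl_pb {i j : Fin N} (hij : i ≠ j)
    (M : Matrix (Fin (Q + 1) × Fin (Q + 1)) (Fin (Q + 1) × Fin (Q + 1)) ℂ)
    (ψ : (Fin N → Fin (Q + 1)) → ℂ) (x : Fin N → Fin (Q + 1)) :
    sl i j (pb M i j ψ) x = M *ᵥ sl i j ψ x := by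
  funext ab
  change (M *ᵥ sl i j ψ (up2 i j x ab)) (up2 i j x ab i, up2 i j x ab j) = _
  rw [up2_i hij, up2_j, sl_up2]

theorem pb_mul {i j : Fin N} (hij : i ≠ j)
    (M M' : Matrix (Fin (Q + 1) × Fin (Q + 1)) (Fin (Q + 1) × Fin (Q + 1)) ℂ)
    (ψ : (Fin N → Fin (Q + 1)) → ℂ) : pb (M * M') i j ψ = pb M i j (pb M' i j ψ) := by
  funext x
  change ((M * M') *ᵥ sl i j ψ x) (x i, x j) = (M *ᵥ sl i j (pb M' i j ψ) x) (x i, x j)
  rw [sl_pb hij, Matrix.mulVec_mulVec]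

theorem pb_add (i j : Fin N)
    (M M' : Matrix (Fin (Q + 1) × Fin (Q + 1)) (Fin (Q + 1) × Fin (Q + 1)) ℂ)
    (ψ : (Fin N → Fin (Q + 1)) → ℂ) : pb (M + M') i j ψ = pb M i j ψ + pb M' i j ψ := by
  funext x
  change ((M + M') *ᵥ sl i j ψ x) (x i, x j) = _
  rw [Matrix.add_mulVec]
  rfl

theorem pb_left {i j : Fin N} (hij : i ≠ j) (A : Matrix (Fin (Q + 1)) (Fin (Q + 1)) ℂ)
    (ψ : (Fin N → Fin (Q + 1)) → ℂ) :
    pb (Matrix.kroneckerMap (· * ·) A (1 : Matrix (Fin (Q + 1)) (Fin (Q + 1)) ℂ)) i j ψ =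
      ob A i ψ := by
  funext x
  unfold pb ob
  rw [Matrix.mulVec, dotProduct, Fintype.sum_prod_type]
  refine Finset.sum_congr rfl fun a _ => ?_
  rw [Finset.sum_eq_single (x j)]
  · rw [Matrix.kroneckerMap_apply, Matrix.one_apply_eq, mul_one]
    congr 1
    unfold sl up2
    congr 1
    have : x j = Function.update x i a j := by rw [Function.update_of_ne (Ne.symm hij)]
    simp only
    conv_lhs => rw [this]
    rw [Function.update_eq_self]
  · intro b _ hb
    rw [Matrix.kroneckerMap_apply, Matrix.one_apply_ne (Ne.symm hb), mul_zero, zero_mul]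
  · intro h
    exact absurd (Finset.mem_univ _) h

theorem pb_right {i j : Fin N} (A : Matrix (Fin (Q + 1)) (Fin (Q + 1)) ℂ)
    (ψ : (Fin N → Fin (Q + 1)) → ℂ) :
    pb (Matrix.kroneckerMap (· * ·) (1 : Matrix (Fin (Q + 1)) (Fin (Q + 1)) ℂ) A) i j ψ =
      ob A j ψ := by
  funext x
  unfold pb ob
  rw [Matrix.mulVec, dotProduct, Fintype.sum_prod_type, Finset.sum_eq_single (x i)]
  · refine Finset.sum_congr rfl fun b _ => ?_
    rw [Matrix.kroneckerMap_apply, Matrix.one_apply_eq, one_mul]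
    congr 1
    unfold sl up2
    rw [Function.update_eq_self]
  · intro a _ ha
    refine Finset.sum_eq_zero fun b _ => ?_
    rw [Matrix.kroneckerMap_apply, Matrix.one_apply_ne (Ne.symm ha), zero_mul, zero_mul]
  · intro h
    exact absurd (Finset.mem_univ _) h

theorem pb_total {i j : Fin N} (hij : i ≠ j) (A : Matrix (Fin (Q + 1)) (Fin (Q + 1)) ℂ)
    (ψ : (Fin N → Fin (Q + 1)) → ℂ) : pb (Sphere.total A) i j ψ = ob A i ψ + ob A j ψ := by
  unfold Sphere.total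
  rw [pb_add, pb_left hij, pb_right]

theorem total_conj (A : Matrix (Fin (Q + 1)) (Fin (Q + 1)) ℂ) :
    (Sphere.total A)ᴴ = Sphere.total Aᴴ := by
  ext ⟨a, b⟩ ⟨c, d⟩
  unfold Sphere.total
  rw [Matrix.conjTranspose_apply, Matrix.add_apply, Matrix.add_apply, Matrix.kroneckerMap_apply,
    Matrix.kroneckerMap_apply, Matrix.kroneckerMap_apply, Matrix.kroneckerMap_apply,
    Matrix.conjTranspose_apply, Matrix.conjTranspose_apply, star_add, star_mul', star_mul']
  congr 2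
  · rw [Matrix.one_apply, Matrix.one_apply]
    by_cases h : d = b
    · rw [if_pos h, if_pos h.symm, star_one]
    · rw [if_neg h, if_neg (fun h' => h h'.symm), star_zero]
  · rw [Matrix.one_apply, Matrix.one_apply]
    by_cases h : c = a
    · rw [if_pos h, if_pos h.symm, star_one]
    · rw [if_neg h, if_neg (fun h' => h h'.symm), star_zero]

theorem Psi_Jsq {i j : Fin N} (hij : i ≠ j) (f : Wave N) :
    Psi Q (Jsq i j f) = pb (Sphere.casimir Q) i j (Psi Q f) := by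
  unfold Sphere.casimir Sphere.casimirOf
  rw [pb_add, pb_add, pb_mul hij, pb_mul hij, total_conj, pb_total hij, pb_total hij,
    pb_total hij, pb_total hij]
  unfold Jsq
  simp only [Psi_add, Psi_Jm, Psi_Jp, Psi_Jz]

/-- the eigenvalue `J (J + 1)`, `J = Q - 1` -/
def ev (Q : ℕ) : ℂ := ((Q : ℂ) - 1) * Q

theorem mem_eig {ι : Type} [Fintype ι] [DecidableEq ι] (M : Matrix ι ι ℂ) (c : ℂ) (φ : ι → ℂ) :
    WithLp.toLp 2 φ ∈ Sphere.eigSpace M c ↔ M *ᵥ φ = c • φ := by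
  unfold Sphere.eigSpace
  rw [Module.End.mem_eigenspace_iff, Matrix.toLpLin_toLp]
  constructor
  · intro h
    have := congrArg WithLp.ofLp h
    exact this
  · intro h
    exact congrArg (WithLp.toLp 2) h

theorem slice_mem {i j : Fin N} (hij : i ≠ j) {g : Wave N} (hg : PairSpin Q i j g)
    (x : Fin N → Fin (Q + 1)) :
    WithLp.toLp 2 (sl i j (Psi Q g) x) ∈ Sphere.eigSpace (Sphere.casimir Q) (ev Q) := by
  rw [mem_eig, ← sl_pb hij, ← Psi_Jsq hij, hg.2, Psi_C_mul]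
  rfl

theorem pairSpin_Phi {i j : Fin N} (hij : i ≠ j) (ψ : (Fin N → Fin (Q + 1)) → ℂ)
    (h : ∀ x, WithLp.toLp 2 (sl i j ψ x) ∈ Sphere.eigSpace (Sphere.casimir Q) (ev Q)) :
    PairSpin Q i j (Phi ψ) := by
  refine ⟨Homog_Phi ψ, Psi_inj (Homog_Jsq (Homog_Phi ψ) i j) (Homog_C_mul (Homog_Phi ψ) _) ?_⟩
  rw [Psi_Jsq hij, Psi_C_mul, Psi_Phi]
  funext x
  have h1 := (mem_eig _ _ _).1 (h x)
  change (Sphere.casimir Q *ᵥ sl i j ψ x) (x i, x j) = ev Q * ψ x
  rw [h1]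
  change ev Q * sl i j ψ x (x i, x j) = _
  rw [sl_self]

theorem sl_Ppair {i j : Fin N} (hij : i ≠ j) (ψ : (Fin N → Fin (Q + 1)) → ℂ)
    (x : Fin N → Fin (Q + 1)) : sl i j (Sphere.Ppair i j ψ) x = Sphere.P1 Q (sl i j ψ x) := by
  funext ab
  change Sphere.P1 Q (sl i j ψ (up2 i j x ab)) (up2 i j x ab i, up2 i j x ab j) = _
  rw [up2_i hij, up2_j, sl_up2]

theorem P1_mem (φ : Fin (Q + 1) × Fin (Q + 1) → ℂ) :
    WithLp.toLp 2 (Sphere.P1 Q φ) ∈ Sphere.eigSpace (Sphere.casimir Q) (ev Q) :=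
  Submodule.starProjection_apply_mem _ _

theorem P1_orth (φ w : Fin (Q + 1) × Fin (Q + 1) → ℂ)
    (hw : WithLp.toLp 2 w ∈ Sphere.eigSpace (Sphere.casimir Q) (ev Q)) :
    ∑ ab, star (w ab) * (φ ab - Sphere.P1 Q φ ab) = 0 := by
  have h := Submodule.sub_starProjection_mem_orthogonal
    (K := Sphere.eigSpace (Sphere.casimir Q) (ev Q)) (WithLp.toLp 2 φ)
  have h2 := (Submodule.mem_orthogonal _ _).1 h _ hw
  have h3 := Bridge.ip_eq w (φ - Sphere.P1 Q φ)
  have h4 : (WithLp.toLp 2 (φ - Sphere.P1 Q φ) : EuclideanSpace ℂ (Fin (Q + 1) × Fin (Q + 1))) =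
      WithLp.toLp 2 φ -
        (Sphere.eigSpace (Sphere.casimir Q) (ev Q)).starProjection (WithLp.toLp 2 φ) := rfl
  rw [h4, h2] at h3
  exact h3

theorem sum_zero {i j : Fin N} (hij : i ≠ j) (F : (Fin N → Fin (Q + 1)) → ℂ)
    (h : ∀ x, ∑ ab, F (up2 i j x ab) = 0) : ∑ x, F x = 0 := by
  let e : ((Fin N → Fin (Q + 1)) × (Fin (Q + 1) × Fin (Q + 1))) →
      ((Fin N → Fin (Q + 1)) × (Fin (Q + 1) × Fin (Q + 1))) :=
    fun p => (up2 i j p.1 p.2, (p.1 i, p.1 j))
  have he : Function.Involutive e := by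
    rintro ⟨x, ab⟩
    simp only [e]
    rw [up2_up2, up2_self, up2_i hij, up2_j]
  have h1 : ∑ p : (Fin N → Fin (Q + 1)) × (Fin (Q + 1) × Fin (Q + 1)), F (e p).1 =
      ∑ p : (Fin N → Fin (Q + 1)) × (Fin (Q + 1) × Fin (Q + 1)), F p.1 :=
    Equiv.sum_comp he.toPerm (fun p => F p.1)
  rw [Fintype.sum_prod_type, Fintype.sum_prod_type] at h1
  simp only [e, h, Finset.sum_const_zero, Finset.sum_const, Finset.card_univ, nsmul_eq_mul,
    ← Finset.mul_sum] at h1
  have h2 : ((Fintype.card (Fin (Q + 1) × Fin (Q + 1)) : ℕ) : ℂ) ≠ 0 := by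
    rw [Nat.cast_ne_zero]
    exact Fintype.card_ne_zero
  exact (mul_eq_zero.1 h1.symm).resolve_left h2

theorem slice_orth {i j : Fin N} (hij : i ≠ j) (w ψ : (Fin N → Fin (Q + 1)) → ℂ)
    (hw : ∀ x, WithLp.toLp 2 (sl i j w x) ∈ Sphere.eigSpace (Sphere.casimir Q) (ev Q)) :
    ∑ x, star (w x) * (ψ x - Sphere.Ppair i j ψ x) = 0 := by
  refine sum_zero hij _ fun x => ?_
  have h := P1_orth (sl i j ψ x) (sl i j w x) (hw x)
  rw [← sl_Ppair hij] at h
  exact h

/-- the orthogonal projection exists -/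
theorem isP1_Phi {i j : Fin N} (hij : i ≠ j) (f : Wave N) :
    IsP1 Q i j f (Phi (Sphere.Ppair i j (Psi Q f))) := by
  refine ⟨pairSpin_Phi hij _ fun x => ?_, fun h hh => ?_⟩
  · rw [sl_Ppair hij]
    exact P1_mem _
  · rw [ip_eq hh.1, Psi_sub, Psi_Phi]
    exact slice_orth hij (Psi Q h) (Psi Q f) (slice_mem hij hh)

/-- the orthogonal projection in coordinates -/
theorem Psi_of_isP1 {i j : Fin N} (hij : i ≠ j) {f g : Wave N} (hg : IsP1 Q i j f g) :
    Psi Q g = Sphere.Ppair i j (Psi Q f) := by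
  obtain ⟨D, hD⟩ : ∃ D : (Fin N → Fin (Q + 1)) → ℂ,
    D = Psi Q g - Sphere.Ppair i j (Psi Q f) := ⟨_, rfl⟩
  have hDm : ∀ x, WithLp.toLp 2 (sl i j D x) ∈ Sphere.eigSpace (Sphere.casimir Q) (ev Q) := by
    intro x
    have h1 := slice_mem hij hg.1 x
    have h2 := P1_mem (sl i j (Psi Q f) x)
    rw [← sl_Ppair hij] at h2
    have h3 := sub_mem h1 h2
    rw [hD]
    exact h3
  have h1 := hg.2 _ (pairSpin_Phi hij D hDm)
  rw [ip_eq (Homog_Phi D), Psi_Phi, Psi_sub] at h1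
  have h2 := slice_orth hij D (Psi Q f) hDm
  have h3 : ∑ x, star (D x) * D x = 0 := by
    have h4 : ∑ x, star (D x) * D x = (∑ x, star (D x) * (Psi Q f x - Sphere.Ppair i j (Psi Q f) x)) -
        ∑ x, star (D x) * (Psi Q f - Psi Q g) x := by
      rw [← Finset.sum_sub_distrib]
      refine Finset.sum_congr rfl fun x _ => ?_
      have : D x = Psi Q g x - Sphere.Ppair i j (Psi Q f) x := by rw [hD]; rfl
      rw [Pi.sub_apply]
      linear_combination (star (D x)) * this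
    rw [h4, h1, h2, sub_zero]
  have h5 : D = 0 := by
    have h6 : ∑ x, ‖D x‖ ^ 2 = 0 := by
      have h7 : ((∑ x, ‖D x‖ ^ 2 : ℝ) : ℂ) = 0 := by
        rw [← h3]
        push_cast
        refine Finset.sum_congr rfl fun x _ => ?_
        rw [Complex.star_def, Complex.conj_mul']
      exact_mod_cast h7
    funext x
    have h8 := (Finset.sum_eq_zero_iff_of_nonneg (fun x _ => sq_nonneg ‖D x‖)).1 h6 x
      (Finset.mem_univ x)
    have h9 : ‖D x‖ = 0 := by
      exact pow_eq_zero_iff (two_ne_zero) |>.1 h8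
    exact norm_eq_zero.1 h9
  rw [h5] at hD
  exact (sub_eq_zero.1 hD.symm)

end

end Vale.Agent.P359.Spinor
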